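import Vale.Agent.P129Z.Stmt

/-!
# Naimark's problem in a model of set theory

`(M, E)` is a set `M` with a binary relation `E`; read `E x y` as `x ∈ y`. This file defines what it
means that, in `(M, E)`, some C*-algebra has property (N) and is not isomorphic to any `K(L)`.
All quantifiers range over `M`. `R` is the field of real numbers and `K = R × R` the field of complex
numbers of the model (`IsReals`, `IsComplexScalars`).
-/

namespace Vale.Agent.P070Z

open Vale.Agent.P323.Z Vale.Agent.P129Z.S

/-- The data of an inner product space: a normed space and the inner product. -/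
structure Hilb (M : Type*) extends Space M where
  inner : M

variable {M : Type*} (E : M → M → Prop) (R : Reals M) (K : Scalars M)

/-- `H` is a complex Hilbert space: a Banach space with an inner product `⟨x, y⟩`, linear in `y`,
with `⟨y, x⟩` the conjugate of `⟨x, y⟩` and `⟨x, x⟩ = ‖x‖²`. -/
structure IsHilbert (H : Hilb M) : Prop where
  banach : IsBanach E R K H.toSpace
  inner_op : IsOp2 E H.inner H.car H.car K.car
  inner_add : ∀ x y z, E x H.car → E y H.car → E z H.car →
    ap2 E H.inner x (ap2 E H.add y z) = ap2 E K.add (ap2 E H.inner x y) (ap2 E H.inner x z)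
  inner_smul : ∀ c x y, E c K.car → E x H.car → E y H.car →
    ap2 E H.inner x (ap2 E H.smul c y) = ap2 E K.mul c (ap2 E H.inner x y)
  inner_conj : ∀ x y a b b', E x H.car → E y H.car → E a R.car → E b R.car → E b' R.car →
    ap2 E R.add b b' = R.zero → ap2 E H.inner x y = opair E a b → ap2 E H.inner y x = opair E a b'
  inner_self : ∀ x, E x H.car →
    ap2 E H.inner x x = opair E (ap2 E R.mul (ap E H.norm x) (ap E H.norm x)) R.zero

/-- `T` is a linear map from `H` to `L`. -/
def IsLinear (H L : Hilb M) (T : M) : Prop :=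
  IsFunction E T H.car L.car ∧
    (∀ x y, E x H.car → E y H.car → ap E T (ap2 E H.add x y) = ap2 E L.add (ap E T x) (ap E T y)) ∧
    ∀ c x, E c K.car → E x H.car → ap E T (ap2 E H.smul c x) = ap2 E L.smul c (ap E T x)

/-- `T ∈ B(H)`: `T` is a bounded linear operator on `H`. -/
def IsOper (H : Hilb M) (T : M) : Prop :=
  IsLinear E K H H T ∧ ∃ C, E C R.car ∧
    ∀ x, E x H.car → R.Le E (ap E H.norm (ap E T x)) (ap2 E R.mul C (ap E H.norm x))

/-- `U = S + T` -/
def IsAdd (H : Hilb M) (S T U : M) : Prop :=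
  ∀ x, E x H.car → ap E U x = ap2 E H.add (ap E S x) (ap E T x)

/-- `U = c T` -/
def IsSMul (H : Hilb M) (c T U : M) : Prop := ∀ x, E x H.car → ap E U x = ap2 E H.smul c (ap E T x)

/-- `U = S T` -/
def IsMul (H : Hilb M) (S T U : M) : Prop := ∀ x, E x H.car → ap E U x = ap E S (ap E T x)

/-- `U = T*` -/
def IsAdj (H : Hilb M) (T U : M) : Prop :=
  ∀ x y, E x H.car → E y H.car → ap2 E H.inner (ap E U x) y = ap2 E H.inner x (ap E T y)

/-- `x` is in the closed unit ball of `H`. -/
def InBall (H : Hilb M) (x : M) : Prop := E x H.car ∧ R.Le E (ap E H.norm x) R.one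

/-- `A` is a C*-algebra: a norm-closed `*`-subalgebra of `B(H)`. -/
structure IsCStar (H : Hilb M) (A : M) : Prop where
  oper : ∀ T, E T A → IsOper E R K H T
  zero : ∃ T, E T A ∧ ∀ x, E x H.car → ap E T x = H.zero
  add : ∀ S T, E S A → E T A → ∃ U, E U A ∧ IsAdd E H S T U
  smul : ∀ c T, E c K.car → E T A → ∃ U, E U A ∧ IsSMul E H c T U
  mul : ∀ S T, E S A → E T A → ∃ U, E U A ∧ IsMul E H S T U
  adj : ∀ T, E T A → ∃ U, E U A ∧ IsAdj E H T U
  closed : ∀ T, IsOper E R K H T → (∀ ε, R.Pos E ε → ∃ S, E S A ∧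
    ∀ x, InBall E R H x → Close E R H.toSpace ε (ap E T x) (ap E S x)) → E T A

/-- `π` is a representation of `A ⊆ B(H)` on `L`: a `*`-homomorphism `A → B(L)`. -/
structure IsRep (H : Hilb M) (A : M) (L : Hilb M) (π : M) : Prop where
  func : ∃ B, IsFunction E π A B
  oper : ∀ T, E T A → IsOper E R K L (ap E π T)
  add : ∀ S T U, E S A → E T A → E U A → IsAdd E H S T U →
    IsAdd E L (ap E π S) (ap E π T) (ap E π U)
  smul : ∀ c T U, E c K.car → E T A → E U A → IsSMul E H c T U → IsSMul E L c (ap E π T) (ap E π U)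
  mul : ∀ S T U, E S A → E T A → E U A → IsMul E H S T U →
    IsMul E L (ap E π S) (ap E π T) (ap E π U)
  adj : ∀ T U, E T A → E U A → IsAdj E H T U → IsAdj E L (ap E π T) (ap E π U)

/-- `π` is irreducible: `π ≠ 0`, and `0` and `L` are the only closed invariant subspaces. -/
def IsIrred (A : M) (L : Hilb M) (π : M) : Prop :=
  (∃ T x, E T A ∧ E x L.car ∧ ap E (ap E π T) x ≠ L.zero) ∧
    ∀ V, IsSubspace E K L.toSpace V → IsClosedIn E R L.toSpace V →
      (∀ T x, E T A → E x V → E (ap E (ap E π T) x) V) → (∀ x, E x V → x = L.zero) ∨ Sub E L.car V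

/-- `W` is a unitary from `L` onto `L'`. -/
def IsUnitary (L L' : Hilb M) (W : M) : Prop :=
  IsLinear E K L L' W ∧ IsSurjection E W L.car L'.car ∧
    ∀ x y, E x L.car → E y L.car → ap2 E L'.inner (ap E W x) (ap E W y) = ap2 E L.inner x y

/-- `π` and `σ` are unitarily equivalent. -/
def UnitEquiv (A : M) (L : Hilb M) (π : M) (L' : Hilb M) (σ : M) : Prop :=
  ∃ W, IsUnitary E K L L' W ∧
    ∀ T x, E T A → E x L.car → ap E W (ap E (ap E π T) x) = ap E (ap E σ T) (ap E W x)

/-- Property (N): `A ≠ 0` and any two irreducible representations are unitarily equivalent. -/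
def PropN (H : Hilb M) (A : M) : Prop :=
  (∃ T x, E T A ∧ E x H.car ∧ ap E T x ≠ H.zero) ∧
    ∀ (L : Hilb M) (π : M) (L' : Hilb M) (σ : M), IsHilbert E R K L → IsHilbert E R K L' →
      IsRep E R K H A L π → IsRep E R K H A L' σ → IsIrred E R K A L π → IsIrred E R K A L' σ →
      UnitEquiv E K A L π L' σ

/-- `T` is compact: the image of the unit ball is totally bounded. -/
def IsCompactOp (L : Hilb M) (T : M) : Prop :=
  ∀ ε, R.Pos E ε → ∃ F, IsFinite E F ∧ Sub E F L.car ∧
    ∀ x, InBall E R L x → ∃ y, E y F ∧ Close E R L.toSpace ε (ap E T x) y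

/-- `A` is isomorphic to `K(L)` for some Hilbert space `L`: there is an injective `*`-homomorphism
`A → B(L)` whose range is the set of compact operators. -/
def IsCompacts (H : Hilb M) (A : M) : Prop :=
  ∃ (L : Hilb M) (π : M), IsHilbert E R K L ∧ IsRep E R K H A L π ∧
    (∀ S T, E S A → E T A → ap E π S = ap E π T → S = T) ∧
    ∀ U, IsOper E R K L U → (IsCompactOp E R L U ↔ ∃ T, E T A ∧ ap E π T = U)

/-- In `(M, E)`: the real and complex numbers exist, and some C*-algebra has property (N) and is
not isomorphic to `K(L)` for any Hilbert space `L`. -/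
def Counter : Prop :=
  (∃ (R : Reals M) (K : Scalars M), IsReals E R ∧ IsComplexScalars E R K) ∧
    ∀ (R : Reals M) (K : Scalars M), IsReals E R → IsComplexScalars E R K →
      ∃ (H : Hilb M) (A : M), IsHilbert E R K H ∧ IsCStar E R K H A ∧ PropN E R K H A ∧
        ¬ IsCompacts E R K H A

end Vale.Agent.P070Z
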