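import Vale.Agent.P070ZS.FO
import Vale.Agent.P129BJ.Complete

/-!
# From all models to a formal proof
-/

namespace Vale.Agent.P070Z

open Vale.Agent.P323.Z Vale.Agent.P323.Z.Fml Vale.Agent.P129Z.S Vale.Agent.P129B.Syn

universe v

/-- The deduction theorem. -/
theorem prf_ded {T : Set (Fml 0)} {χ : Fml 0} {n : ℕ} {Γ : List (Fml n)} {φ : Fml n}
    (h : Prf (insert χ T) Γ φ) :
    ∀ Δ : List (Fml n), Γ ⊆ Δ → χ.rename Fin.elim0 ∈ Δ → Prf T Δ φ := by
  have key : ∀ {n : ℕ} {Δ : List (Fml n)}, χ.rename Fin.elim0 ∈ Δ →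
      χ.rename Fin.elim0 ∈ Δ.map lift := by
    intro n Δ H
    refine List.mem_map.2 ⟨_, H, ?_⟩
    rw [lift, rename_rename, Subsingleton.elim (_ ∘ Fin.elim0) Fin.elim0]
  induction h with
  | ax h =>
    intro Δ _ H
    rcases h with rfl | h
    exacts [.hyp H, .ax h]
  | hyp h => exact fun Δ H _ => .hyp (H h)
  | impI _ ih =>
    exact fun Δ H K => .impI (ih _ (List.cons_subset_cons _ H) (List.mem_cons_of_mem _ K))
  | impE _ _ ih₁ ih₂ => exact fun Δ H K => .impE (ih₁ Δ H K) (ih₂ Δ H K)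
  | raa _ ih =>
    exact fun Δ H K => .raa (ih _ (List.cons_subset_cons _ H) (List.mem_cons_of_mem _ K))
  | allI _ ih => exact fun Δ H K => .allI (ih _ (List.map_subset _ H) (key K))
  | allE i _ ih => exact fun Δ H K => .allE i (ih Δ H K)
  | refl i => exact fun Δ _ _ => .refl i
  | subst φ i j _ _ ih₁ ih₂ => exact fun Δ H K => .subst φ i j (ih₁ Δ H K) (ih₂ Δ H K)
  | nonempty _ ih => exact fun Δ H K => .nonempty (ih _ (List.map_subset _ H) (key K))

theorem sat_ulift {M : Type} (E : M → M → Prop) {n : ℕ} (φ : Fml n) :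
    ∀ w : Fin n → ULift.{v} M,
      φ.Sat (fun x y : ULift.{v} M => E x.down y.down) w ↔ φ.Sat E (fun i => (w i).down) := by
  induction φ with
  | bot => exact fun _ => Iff.rfl
  | eq i j => exact fun _ => ULift.down_inj.symm
  | mem i j => exact fun _ => Iff.rfl
  | imp φ ψ h k => exact fun w => imp_congr (h w) (k w)
  | all φ h =>
    intro w
    have e : ∀ x : ULift.{v} M, (fun i => (Fin.snoc (α := fun _ => ULift.{v} M) w x i).down) =
        Fin.snoc (α := fun _ => M) (fun i => (w i).down) x.down := fun x =>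
      Fin.comp_snoc ULift.down w x
    exact ⟨fun H x => by simpa only [e] using (h _).1 (H ⟨x⟩),
      fun H x => (h _).2 (by rw [e]; exact H x.down)⟩

/-- **Soundness and completeness**: provable means true in all nonempty models. -/
theorem prf_iff_models (T : Set (Fml 0)) (φ : Fml 0) : Prf T [] φ ↔
    ∀ (M : Type v) (E : M → M → Prop), Nonempty M → (∀ ψ ∈ T, ψ.Sat E Fin.elim0) →
      φ.Sat E Fin.elim0 := by
  refine ⟨fun h M E _ hT => h.sound hT _ fun _ h => absurd h List.not_mem_nil, fun h => ?_⟩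
  by_contra k
  obtain ⟨M, E, h1, -, h2⟩ := exists_model (T := insert (neg φ) T) fun c => k (Prf.raa
    (prf_ded c _ (List.nil_subset _) (by
      rw [rename_id _ _ fun i => i.elim0]; exact List.mem_cons_self)))
  have e : ∀ ψ : Fml 0, ψ.Sat (fun x y : ULift.{v} M => E x.down y.down) Fin.elim0 ↔
      ψ.Sat E Fin.elim0 := fun ψ =>
    (sat_ulift E ψ _).trans (by rw [Subsingleton.elim (fun i => _) Fin.elim0])
  exact h2 _ (Set.mem_insert _ _) ((e φ).1 (h _ _ inferInstance fun ψ hψ =>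
    (e ψ).2 (h2 ψ (Set.mem_insert_of_mem _ hψ))))

/-- A theory with a model is consistent. -/
theorem con_of_model {T : Set (Fml 0)} {M : Type v} {E : M → M → Prop} [Nonempty M]
    (h : ∀ ψ ∈ T, ψ.Sat E Fin.elim0) : Con T :=
  fun k => k.sound h Fin.elim0 fun _ h => absurd h List.not_mem_nil

/-- If `Counter` holds in all models of ZFC, then ZFC proves a sentence which expresses it, and the
negation of this sentence is not consistent with ZFC. -/
theorem prf_of_models (H : ∀ (M : Type v) (E : M → M → Prop), IsZFCModel E → Counter E) :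
    ∃ φ : Fml 0, (∀ (M : Type v) (E : M → M → Prop), φ.Sat E Fin.elim0 ↔ Counter E) ∧
      Prf ZFC [] φ ∧ ¬ Con (ZFC ∪ {φ.neg}) := by
  obtain ⟨φ, h⟩ := P070ZS.exists_fml_counter.{v}
  have p : Prf ZFC [] φ := (prf_iff_models.{v} _ _).2 fun M E _ k =>
    (h M E).2 (H M E ((isZFCModel_iff E).2 k))
  refine ⟨φ, h, p, fun k => ?_⟩
  obtain ⟨M, E, h1, -, h2⟩ := exists_model k
  exact h2 _ (Or.inr rfl) ((prf_iff_models.{0} _ _).1 p M E h1 fun ψ hψ => h2 ψ (Or.inl hψ))

end Vale.Agent.P070Z
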